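import Vale.Agent.P252.Graph

open scoped ContDiff

namespace Vale.Agent.Results.P252.Counterexamples

/-- For every `n ≥ 10` there is a smooth entire locally uniformly convex solution of the affine
maximal equation which is not a quadratic polynomial. -/
theorem result : ∀ n : ℕ, 10 ≤ n →
    ∃ u : EuclideanSpace ℝ (Fin n) → ℝ, ContDiff ℝ ∞ u ∧
      (∀ x, (Vale.Agent.P252.hessian u x).PosDef) ∧
      (∀ x, ∑ i, ∑ j, ((Vale.Agent.P252.hessian u x).det • (Vale.Agent.P252.hessian u x)⁻¹) i j *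
        Vale.Agent.P252.hessian
          (fun z => (Vale.Agent.P252.hessian u z).det ^ (-((n : ℝ) + 1) / ((n : ℝ) + 2))) x i j
          = 0) ∧
      ¬ ∃ (A : Matrix (Fin n) (Fin n) ℝ) (b : Fin n → ℝ) (c : ℝ),
        ∀ x, u x = ∑ i, ∑ j, A i j * x i * x j + ∑ i, b i * x i + c := by
  intro n hn
  obtain ⟨k, rfl⟩ : ∃ k, n = k + 1 := ⟨n - 1, by omega⟩
  obtain ⟨u, hu, hpd, heq, haxis⟩ := Vale.Agent.P252.exists_solution (k := k) (by omega)
  refine ⟨u, hu, hpd, heq, ?_⟩
  rintro ⟨A, b, c, hq⟩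
  have key : ∀ t : ℝ, √(1 + t ^ 2) =
      A (Fin.last k) (Fin.last k) * t ^ 2 + b (Fin.last k) * t + c := by
    intro t
    have h := hq (t • EuclideanSpace.single (Fin.last k) (1:ℝ))
    rw [haxis t] at h
    rw [h]
    simp [pow_two, mul_assoc]
  have h0 := key 0
  have h1 := key 1
  have h2 := key (-1)
  have h3 := key 2
  simp only [ne_eq, OfNat.ofNat_ne_zero, not_false_eq_true, zero_pow, add_zero, Real.sqrt_one,
    mul_zero] at h0
  norm_num at h1 h2 h3
  have s2 : √(2:ℝ) ^ 2 = 2 := Real.sq_sqrt (by norm_num)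
  have s5 : √(5:ℝ) ^ 2 = 5 := Real.sq_sqrt (by norm_num)
  have e : √(5:ℝ) = 4 * √2 - 3 := by linarith
  rw [e] at s5
  nlinarith

end Vale.Agent.Results.P252.Counterexamples
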