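import Vale.Agent.P252.Growth.Main

open scoped ContDiff

namespace Vale.Agent.Results.P252.NoBoundedDomain

/-- In every dimension `n ≥ 1`, a locally uniformly convex solution of the affine maximal equation
with Euclidean complete graph has an unbounded domain and an unbounded gradient; more generally
neither `|x - x₀|²` nor `|Du - Du(x₀)|²` is of lower order than the corresponding Bregman
function at infinity. -/
theorem result : ∀ n : ℕ, 1 ≤ n →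
    ∀ (Ω : Set (EuclideanSpace ℝ (Fin n))) (u : EuclideanSpace ℝ (Fin n) → ℝ),
      IsOpen Ω → Convex ℝ Ω → Ω.Nonempty → ContDiffOn ℝ ∞ u Ω →
      (∀ x ∈ Ω, (Vale.Agent.P252.hessian u x).PosDef) →
      (∀ x ∈ Ω, ∑ i, ∑ j, ((Vale.Agent.P252.hessian u x).det • (Vale.Agent.P252.hessian u x)⁻¹) i j *
        Vale.Agent.P252.hessian
          (fun z => (Vale.Agent.P252.hessian u z).det ^ (-((n : ℝ) + 1) / ((n : ℝ) + 2))) x i j
          = 0) →
      Vale.Agent.P252.Growth.EuclideanComplete Ω u →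
      ¬ Bornology.IsBounded Ω ∧
      (¬ ∃ L, ∀ x ∈ Ω, ‖fderiv ℝ u x‖ ≤ L) ∧
      ∀ x₀ ∈ Ω,
        (¬ ∀ ε > 0, ∃ T₀ : ℝ, ∀ T ≥ T₀, ∀ x ∈ Ω,
          u x₀ - u x - fderiv ℝ u x (x₀ - x) ≤ T → ‖x - x₀‖ ^ 2 ≤ ε * T) ∧
        ¬ ∀ ε > 0, ∃ T₀ : ℝ, ∀ T ≥ T₀, ∀ x ∈ Ω,
          u x - u x₀ - fderiv ℝ u x₀ (x - x₀) ≤ T →
            ‖fderiv ℝ u x - fderiv ℝ u x₀‖ ^ 2 ≤ ε * T := by
  intro n hn Ω u hopen hconv ⟨p, hp⟩ hu hpd heq hcomp
  have h : Vale.Agent.P252.Growth.IsAMGraph Ω u := ⟨hopen, hconv, hu, hpd, heq, hcomp⟩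
  exact ⟨Vale.Agent.P252.Growth.not_bounded h hn hp, Vale.Agent.P252.Growth.not_lipschitz h hn hp,
    fun x₀ h0 => ⟨Vale.Agent.P252.Growth.not_superquadratic h hn h0,
      Vale.Agent.P252.Growth.not_subquadratic h hn h0⟩⟩

end Vale.Agent.Results.P252.NoBoundedDomain
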